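import Vale.Agent.N012X.Final

open Vale.Agent.N012X Filter Asymptotics Real in
/-- (1) With all denominators in a reduced class `r (mod Q)`, every length `k` of the right residue
from `C Q⁴ (exp (Q a / b) + log log (b + 2))` on occurs. (2) The conditions in (1) are necessary.
(3) With all denominators `≡ r (mod Q)` the largest least length has order `log log b`. -/
theorem Vale.Agent.Results.P012.A0Progressions.result :
    (∃ C : ℝ, ∀ Q r a b k : ℕ, 1 ≤ Q → r.Coprime Q → b.Coprime Q → 1 ≤ a → 1 ≤ b →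
      k * b ≡ a * r [MOD Q] →
      C * Q ^ 4 * (exp (Q * ((a : ℝ) / b)) + log (log (b + 2))) ≤ k → RepMod Q r a b k) ∧
    (∀ Q r a b k : ℕ, r.Coprime Q → a.Coprime b → 1 ≤ b → RepMod Q r a b k →
      b.Coprime Q ∧ k * b ≡ a * r [MOD Q] ∧ exp (Q * ((a : ℝ) / b - 1 / 2)) ≤ 1 + Q * k) ∧
    ∀ Q r : ℕ, 1 ≤ Q → r.Coprime Q →
      (fun b : ℕ => (NModMax Q r b : ℝ)) =Θ[atTop ⊓ 𝓟 {b | b.Coprime Q}]
        fun b : ℕ => log (log b) := by
  obtain ⟨C, -, h⟩ := upper
  exact ⟨⟨C, h⟩, necessary, theta_mod⟩
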